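import Vale.Agent.P116.AD.Join
import Vale.Agent.P116.AD.H884.Msh
import Vale.Agent.P116.AD.H984.End1
import Vale.Agent.P116.Cl.H805.Loc

/-!
# P116, block [7]: `LocAD` from the two halves (helper912)
-/

namespace Vale.Agent.P116.AD

lemma rowEnd2 : RowEnd2 := fun _ _ hK _ _ hB _ hz => H984.oscC_eq_sub hK hB hz

theorem locAD_of (hSel : RowSel) (hFin : RowFin) : LocAD :=
  loc_of hSel hFin rowMsh rowLvl H984.rowEnd1 rowEnd2

end Vale.Agent.P116.AD
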