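import Vale.Agent.P116.AD.Asm
import Vale.Agent.P116.AD.H944.Tri
import Vale.Agent.P116.AD.H155.Row
import Vale.Agent.P116.AD.H592.Rep
import Vale.Agent.P116.AD.H179.Sel
import Vale.Agent.P116.H730.Fin7
import Vale.Agent.P116.Cl.H805.Outer

/-!
# P116, block [7]: the adaptation lemma `KF.AD` (helper912)
-/

namespace Vale.Agent.P116.AD

/-- the deterministic half -/
theorem rowFin' : RowFin := rowFin H944.rowLab H592.rowRep H944.rowTri H155.rowCore

/-- **the one-node estimate of block [7]** -/
theorem locAD : LocAD := locAD_of H179.row_sel rowFin'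

/-- **block [7]**: the adaptation lemma -/
theorem ad : KF.AD := ad_of_loc locAD

end Vale.Agent.P116.AD
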