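import Vale.Agent.P116.AD.Spec2
import Vale.Agent.P116.KB.Num169
import Vale.Agent.P116.KB.OscAPI

/-!
# P116, block [7]: the join (helper912)

`loc_of`: the one-node estimate from the rows.
-/

open Set Filter Topology Metric MeasureTheory

namespace Vale.Agent.P116.AD

open H906
open KB720 (cell un clo chi bdc Tk Flat)
open KB.H984 (hitc two bad)
open KB (Hon Zs oscS oscC Eo oc)

/-- **END2** (984): the oscillation at a component is the length of the end interval -/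
def RowEnd2 : Prop := ∀ (K : Set ℂ) (u : ℂ → ℝ), IsCompact K → Full K → ContinuousOn u Kᶜ →
  (∃ B, ∀ z ∈ lev K 0, z ∉ K → |u z| ≤ B) → ∀ z ∈ K,
  oscC K u (connectedComponentIn K z) = bE K u z - aE K u z

/-- the one-node estimate with an explicit constant -/
def LocJ : Prop := ∀ N : ℕ, ∃ C : ℝ, 0 ≤ C ∧ ∀ {K : Set ℂ} (_ : IsCompact K) (_ : Full K) {n : ℕ}
    {x : ℂ} (_ : x ∈ K) {u ρ : Fin N → ℂ → ℝ} (_ : ∀ i, Hon K (nd K n x) (u i) (ρ i))
    (_ : ∀ i, KF.SMon K (nd K n x) (u i))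
    (_ : ∀ i j, i ≠ j → volume (Zs K (nd K n x) (u i) (u j)) = 0) (F : Finset (Set ℂ)) {V A : ℝ}
    (_ : ∀ i, ∀ J : Finset (Set ℂ), (∀ c ∈ J, c ∈ comps K ∧ c ⊆ nd K n x ∧ c ∉ F) →
      ∑ c ∈ J, oscC K (u i) c ^ 2 ≤ V)
    (_ : ∀ i, (∫⁻ z in nd K n x \ K, (ENNReal.ofReal (ρ i z ^ 2) + 1)).toReal ≤ A) {δ : ℝ}
    (_ : 0 < δ), ∃ S, G.NS K (nd K n x) S ∧ (∀ y ∈ K, y ∈ nd K n x → ∃ P ∈ S, y ∈ P) ∧
      ∀ i, ∑ᶠ P ∈ S, oscS K (u i) P ^ 2 ≤ Eo K (nd K n x) (u i) + C * (V + A) + δ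

/-- finite sums of the squared end oscillations are at most the total -/
lemma sum_le_Eo {K w : Set ℂ} {u r : ℂ → ℝ} (h : Hon K w u r) (J : Finset (Set ℂ))
    [DecidablePred fun c : Set ℂ => c ∈ comps K ∧ c ⊆ w] :
    ∑ c ∈ J, (if c ∈ comps K ∧ c ⊆ w then oscC K u c else 0) ^ 2 ≤ Eo K w u := by
  classical
  have h1 : ∑ c ∈ J, (if c ∈ comps K ∧ c ⊆ w then oscC K u c else 0) ^ 2 =
      ∑ c ∈ J.filter (fun c => c ∈ comps K ∧ c ⊆ w), oc K w u c := by
    rw [Finset.sum_filter]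
    refine Finset.sum_congr rfl fun c _ => ?_
    split_ifs with hc
    · rw [KB.oc_of_sub hc.2]
    · ring
  rw [h1]
  set J' := J.filter (fun c => c ∈ comps K ∧ c ⊆ w) with hJ'
  have h2 : ∑ c ∈ J', oc K w u c = ∑ c : J', oc K w u c := (Finset.sum_coe_sort J' _).symm
  rw [h2]
  have h3 : ∀ c : J', (c : Set ℂ) ∈ comps K := fun c => (Finset.mem_filter.1 c.2).2.1
  let e : J' ↪ comps K := ⟨fun c => ⟨c, h3 c⟩, fun a b hab => by
    have := congrArg (Subtype.val) hab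
    exact Subtype.ext this⟩
  have h4 : ∑ c : J', oc K w u c = ∑ c ∈ (Finset.univ.map e), oc K w u (c : Set ℂ) := by
    rw [Finset.sum_map]
    rfl
  rw [h4]
  exact h.sum'.sum_le_tsum _ fun c _ => KB.oc_nonneg _ _ _ _

lemma count_aux {Dc bc y z h V C1 Bd Fc : ℝ} (hh : 0 < h) (hh1 : h ≤ 1) (hD : 0 ≤ Dc)
    (hb : 0 ≤ bc) (hV : 0 ≤ V)
    (hc : bc + y + z ≤ Fc + C1 / h ^ 2 + Bd / h + 1) :
    bc + (Dc + 4 * (y + z)) ≤ 4 * (Fc + (V + C1) / h ^ 2 + (Bd + Dc) / h + 1) := by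
  have h2 : Dc ≤ Dc / h := by
    rw [le_div_iff₀ hh]
    nlinarith
  have h5 : 0 ≤ V / h ^ 2 := by positivity
  have h6 : (V + C1) / h ^ 2 = V / h ^ 2 + C1 / h ^ 2 := by rw [add_div]
  have h7 : (Bd + Dc) / h = Bd / h + Dc / h := by rw [add_div]
  rw [h6, h7]
  linarith

theorem loc_of (hSel : RowSel) (hFin : RowFin) (hMsh : RowMsh) (hLvl : RowLvl) (hE : RowEnd1)
    (hE2 : RowEnd2) : LocJ := by
  intro N
  obtain ⟨C0, hC0, hS0⟩ := hSel (Fin N)
  refine ⟨1 + 432 * (1 + C0), by positivity, ?_⟩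
  intro K hK hf n x hx u r hHon hSM hZ F V A hV hA δ hδ
  set w := nd K n x with hw
  have hwc : IsCompact w := isCompact_nd hK n x
  have hwf : Full w := PBC.full_nd hK n x
  have hwfr : Disjoint (frontier w) K := frontier_nd_disjoint n x
  have hcont : ∀ i, ContinuousOn (u i) Kᶜ := fun i => (hHon i).cont
  have hbdd : ∀ i, ∃ B, ∀ z ∈ lev K 0, z ∉ K → |u i z| ≤ B := fun i => (hHon i).bdd
  obtain ⟨d₀, D, Bd, hd₀, hBd, hD1, hD2, hD3, hsel⟩ := hS0 K n x u r hK hf hx hHon hZ F V A hV hA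
  have hunw : un d₀ D ⊆ interior w := by
    intro z hz
    obtain ⟨V', hV', hzV⟩ := mem_iUnion₂.1 hz
    exact hD2 V' ⟨z, hzV, hz⟩ hzV
  -- constants
  set V' := max V 0 with hV'
  set A' := max A 0 with hA'
  have hV0 : 0 ≤ V' := le_max_right _ _
  have hA0 : 0 ≤ A' := le_max_right _ _
  set δ' := V' + 432 * (V' + C0 * (V' + A')) + δ with hδ'
  classical
  set o : Fin N → Set ℂ → ℝ := fun i c => if c ∈ comps K ∧ c ⊆ w then oscC K (u i) c else 0 with ho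
  have ho0 : ∀ i c, 0 ≤ o i c := by
    intro i c
    simp only [ho]
    split_ifs with hc
    · exact KB.oscC_nonneg (hHon i).bdK hc.1
    · exact le_rfl
  obtain ⟨h0, hh0, hnum⟩ := KB.Num169.num_budget (π := Set ℂ) F o ho0
    (fun i => Eo K w (u i)) (fun i J => sum_le_Eo (hHon i) J) (V := V') (A := C0 * (V' + A'))
    (Bd := Bd + D.card) (C := 6) (K := 4) (δ := δ') hV0
    (by
      intro i J hJ
      have h1 : ∑ c ∈ J, o i c ^ 2 =
          ∑ c ∈ J.filter (fun c => c ∈ comps K ∧ c ⊆ w), oscC K (u i) c ^ 2 := by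
        rw [Finset.sum_filter]
        refine Finset.sum_congr rfl fun c _ => ?_
        simp only [ho]
        split_ifs with hc
        · rfl
        · ring
      rw [h1]
      refine (hV i _ fun c hc => ?_).trans (le_max_left _ _)
      obtain ⟨h2, h3⟩ := Finset.mem_filter.1 hc
      exact ⟨h3.1, h3.2, fun h4 => Finset.disjoint_left.1 hJ h2 h4⟩)
    (by positivity) (by positivity) (by norm_num) (by norm_num)
    (by
      rw [hδ']
      have : (3:ℝ) * 6 ^ 2 * 4 = 432 := by norm_num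
      rw [this]
      linarith)
  -- the size `h`
  obtain ⟨h, hh, hh0', hh1⟩ : ∃ h, 0 < h ∧ h < h0 ∧ h ≤ 1 :=
    ⟨min (h0 / 2) 1, lt_min (by positivity) one_pos, (min_le_left _ _).trans_lt (by linarith),
      min_le_right _ _⟩
  obtain ⟨s, b, hb, hbad, hfreq⟩ := hsel h hh
  -- points in the bad components
  have hpt : ∀ c : Set ℂ, ∃ t : ℂ, c ∈ b → t ∈ K ∩ w ∧ connectedComponentIn K t = c := by
    intro c
    by_cases hc : c ∈ b
    · obtain ⟨⟨t, ht, rfl⟩, hcw⟩ := hb c hc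
      exact ⟨t, fun _ => ⟨⟨ht, hcw (mem_connectedComponentIn ht)⟩, rfl⟩⟩
    · exact ⟨0, fun h' => absurd h' hc⟩
  choose t ht using hpt
  obtain ⟨N₀, hN₀⟩ := hLvl K w (interior (un d₀ D)) hK hf hwc hwfr isOpen_interior hD1
  have hnw : ∀ z ∈ K ∩ w, nd K n z ⊆ w := by
    intro z hz
    rw [hw, nd_eq hz.2]
  set lo : Fin N → Set ℂ → ℝ := fun i Q => sInf (u i '' (Q \ K)) with hlo
  set hi : Fin N → Set ℂ → ℝ := fun i Q => sSup (u i '' (Q \ K)) with hhi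
  obtain ⟨QQ, MM, c, ρ, hρ, hMQ, hQ1, hQw, hQd, hQcov, hQM, -, hQg⟩ :=
    KB.H984.nod (lo := lo) (hi := hi) (a := fun i => aE K (u i)) (b := fun i => bE K (u i))
      (k := n) hK hf (hK.inter_right hwc.isClosed) hnw
      (fun i z hz => ((hE K (u i) hK hf (hcont i) (hbdd i) z hz.1).2.2.1)) hh s
      (b.image t) (by
        intro y hy
        obtain ⟨c, hc, rfl⟩ := Finset.mem_image.1 hy
        exact (ht c hc).1)
      (by
        intro z hz hzb
        exact ⟨t (connectedComponentIn K z), Finset.mem_image_of_mem _ (hbad z hz hzb),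
          (ht _ (hbad z hz hzb)).2⟩) (η := h / 8) (by positivity) N₀
  set ρ' := min ρ (h / 4) with hρ'
  have hρ'0 : 0 < ρ' := lt_min hρ (by positivity)
  have hρ'1 : ρ' ≤ ρ := min_le_left _ _
  have hQform : ∀ Q ∈ QQ, ∃ z ∈ K ∩ w, ∃ m, Q = nd K m z := fun Q hQ => by
    obtain ⟨z, hz, m, -, -, h1⟩ := hQ1 Q hQ
    exact ⟨z, hz, m, h1⟩
  have hQint : ∀ Q ∈ QQ, Q ⊆ interior (un d₀ D) := fun Q hQ => by
    obtain ⟨z, hz, m, h1, -, rfl⟩ := hQ1 Q hQ
    exact hN₀ m h1 z hz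
  have hval : ∀ i, ∀ Q ∈ QQ, ∀ z ∈ Q, z ∉ K → u i z ∈ Icc (lo i Q) (hi i Q) := by
    intro i Q hQ z hz hzK
    obtain ⟨y, hy, m, rfl⟩ := hQform Q hQ
    exact (hE K (u i) hK hf (hcont i) (hbdd i) y hy.1).2.1 m z hz hzK
  have hgood : ∀ Q ∈ QQ, Q ∉ MM → (∀ i, hi i Q - lo i Q + 2 * ρ' < h) ∧
      ¬ two h s (fun i => lo i Q - ρ') (fun i => hi i Q + ρ') := by
    intro Q hQ hQM'
    obtain ⟨h1, h2⟩ := hQg Q hQ hQM'
    refine ⟨fun i => by linarith [h1 i], ?_⟩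
    rintro ⟨i, j, hij, h3, h4⟩
    exact h2 ⟨i, j, hij, KB.H984.hitc_mono (by linarith) (by linarith) h3,
      KB.H984.hitc_mono (by linarith) (by linarith) h4⟩
  have hmsh := hMsh (Fin N) K w u d₀ D h s QQ MM lo hi ρ' hK hf hwc hwfr hd₀ hh hρ'0
    (by have := min_le_right ρ (h / 4); rw [← hρ'] at this; linarith) hMQ hcont hD1 hunw hQform
    hQint hQd hQcov hval hgood
  -- the cells off the nodes
  have hQcovint : K ∩ w ⊆ ⋃ Q ∈ QQ, interior Q := by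
    intro z hz
    obtain ⟨Q, hQ, hzQ⟩ := mem_iUnion₂.1 (hQcov hz)
    refine mem_iUnion₂.2 ⟨Q, hQ, ?_⟩
    obtain ⟨y, hy, m, rfl⟩ := hQform Q hQ
    exact mem_interior_iff_mem_nhds.2 (mem_of_superset (closedBall_mem_nhds z (lr_pos m))
      (closedBall_subset_nd hz.1 hzQ))
  have hopen : IsOpen (⋃ Q ∈ QQ, interior Q) :=
    isOpen_iUnion fun Q => isOpen_iUnion fun _ => isOpen_interior
  have hevt : ∀ᶠ k : ℕ in atTop, ∀ v : ℤ × ℤ,
      (cell (d₀ / 2 ^ k) v ∩ (un d₀ D \ ⋃ Q ∈ QQ, interior Q)).Nonempty →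
      v ∈ Tk K r d₀ D k ∨ v ∈ bdc d₀ D k := by
    refine KB720.evt_Tk (w := w) hK.isClosed (fun i => ((hHon i).rc).mono ?_) hd₀ D hunw
      ((KB720.isCompact_un d₀ D).diff hopen) ?_
    · exact fun z hz => hz.2
    · rintro z ⟨hz1, hz2⟩
      exact ⟨hz1, fun hzK => hz2 (hQcovint ⟨hzK, interior_subset (hunw hz1)⟩)⟩
  obtain ⟨k, hk1, hk2, hk3⟩ := (hfreq.and_eventually (hmsh.and hevt)).exists
  set TT : Finset (ℤ × ℤ) := (KB720.finite_Tk K r hd₀ D k).toFinset with hTT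
  set BB : Finset (ℤ × ℤ) := (KB720.finite_bdc hd₀ D k).toFinset with hBB
  have hTT' : ∀ v, v ∈ TT ↔ v ∈ Tk K r d₀ D k := fun v => by rw [hTT, Set.Finite.mem_toFinset]
  have hBB' : ∀ v, v ∈ BB ↔ v ∈ bdc d₀ D k := fun v => by rw [hBB, Set.Finite.mem_toFinset]
  have hcount := hk1 TT BB hTT' hBB'
  have hnt : ∀ Q ∈ QQ, Q.Nontrivial := by
    intro Q hQ
    obtain ⟨z, hz, m, rfl⟩ := hQform Q hQ
    exact PBC.nontrivial_nd hz.1
  obtain ⟨S, own, hNS, hcov, hown1, hown2, hosc1, hosc2, hcard⟩ := hFin (Fin N) K w u r d₀ D h s QQ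
    MM lo hi ρ' k hK hf hwc hwf hwfr hd₀ hcont hSM hD3 hnt hk2 hk3 TT BB hTT' hBB'
  refine ⟨S, hNS, hcov, fun i₀ => ?_⟩
  -- in the presence of an index the constants are nonnegative
  have hVn : 0 ≤ V := by simpa using hV i₀ ∅ (by simp)
  have hAn : 0 ≤ A := ENNReal.toReal_nonneg.trans (hA i₀)
  have hVe : V' = V := max_eq_left hVn
  have hAe : A' = A := max_eq_left hAn
  set own' : Set ℂ → Option (Set ℂ) :=
    fun P => (own P).map fun Q => connectedComponentIn K (c Q) with hown'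
  have hcQ : ∀ Q ∈ MM, c Q ∈ K ∩ w ∧ c Q ∈ Q ∧ connectedComponentIn K (c Q) ∈ b := by
    intro Q hQ
    obtain ⟨h1, h2, -⟩ := hQM Q hQ
    obtain ⟨c', hc', h3⟩ := Finset.mem_image.1 h1
    rw [← h3, (ht c' hc').2]
    refine ⟨(ht c' hc').1, ?_, hc'⟩
    rw [h3]
    exact h2
  have hsub : ∀ Q ∈ MM, connectedComponentIn K (c Q) ⊆ Q := by
    intro Q hQ
    obtain ⟨h1, h2, -⟩ := hcQ Q hQ
    obtain ⟨z, hz, m, h3⟩ := hQform Q (hMQ hQ)
    have h4 : c Q ∈ nd K m z := h3 ▸ h2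
    have h5 : connectedComponentIn K (c Q) ⊆ nd K m (c Q) :=
      isPreconnected_connectedComponentIn.subset_connectedComponentIn
        (mem_connectedComponentIn h1.1) ((connectedComponentIn_subset _ _).trans (subset_lev m))
    rw [nd_eq h4, ← h3] at h5
    exact h5
  have hownsome : ∀ P c', own' P = some c' → ∃ Q, own P = some Q ∧
      connectedComponentIn K (c Q) = c' := by
    intro P c' hP
    exact Option.map_eq_some_iff.1 hP
  have hownnone : ∀ P, own' P = none → own P = none := by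
    intro P hP
    exact Option.map_eq_none_iff.1 hP
  set Pc : Finset (Set ℂ) := hNS.fin.toFinset with hPc
  have hPc' : ∀ P, P ∈ Pc ↔ P ∈ S := fun P => by rw [hPc, Set.Finite.mem_toFinset]
  set n₀ : ℕ := D.card + 4 * (Set.ncard {v : ℤ × ℤ | v ∈ TT ∧ two h s
    (fun i => clo (u i) (d₀ / 2 ^ k) v) (fun i => chi (u i) (d₀ / 2 ^ k) v)} +
    Set.ncard {v : ℤ × ℤ | v ∈ BB ∧ ∃ i, hitc h (s i) (clo (u i) (d₀ / 2 ^ k) v)
      (chi (u i) (d₀ / 2 ^ k) v)}) with hn₀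
  have hmain := hnum h hh hh0' b Pc own' (fun i P => oscS K (u i) P)
    (fun i P hP => KB.oscS_nonneg ((hHon i).bdK.bdA
      (((hNS.sub P ((hPc' P).1 hP)).trans (nd_subset n x)).trans (lev_anti (Nat.zero_le n)))))
    (by
      intro P hP c' hc'
      obtain ⟨Q, h1, rfl⟩ := hownsome P c' hc'
      exact (hcQ Q (hown1 P ((hPc' P).1 hP) Q h1)).2.2)
    (by
      intro P hP P' hP' c' hc' hc''
      obtain ⟨Q, h1, h2⟩ := hownsome P c' hc'
      obtain ⟨Q', h3, h4⟩ := hownsome P' c' hc''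
      have hQ := hown1 P ((hPc' P).1 hP) Q h1
      have hQ' := hown1 P' ((hPc' P').1 hP') Q' h3
      have h5 : Q = Q' := by
        by_contra hne
        have h6 := hQd Q (hMQ hQ) Q' (hMQ hQ') hne
        have h7 : c Q ∈ connectedComponentIn K (c Q) := mem_connectedComponentIn (hcQ Q hQ).1.1
        refine disjoint_left.1 h6 (hsub Q hQ h7) (hsub Q' hQ' ?_)
        rw [h4, ← h2]
        exact h7
      rw [← h5] at h3
      exact hown2 P ((hPc' P).1 hP) P' ((hPc' P').1 hP') Q h1 h3)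
    (by
      intro P hP c' hc' i
      obtain ⟨Q, h1, rfl⟩ := hownsome P c' hc'
      have hQ := hown1 P ((hPc' P).1 hP) Q h1
      have h2 := hosc1 P ((hPc' P).1 hP) Q h1 i
      obtain ⟨-, -, h3⟩ := hQM Q hQ
      obtain ⟨h4, h5⟩ := h3 i
      obtain ⟨h6, h7, h8⟩ := hcQ Q hQ
      have h9 : o i (connectedComponentIn K (c Q)) = bE K (u i) (c Q) - aE K (u i) (c Q) := by
        simp only [ho]
        rw [if_pos ⟨⟨c Q, h6.1, rfl⟩, (hb _ h8).2⟩]
        exact hE2 K (u i) hK hf (hcont i) (hbdd i) (c Q) h6.1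
      rw [h9]
      linarith)
    (by
      intro P hP hP' i
      have h1 : own P = none := hownnone P hP'
      have h2 := hosc2 P ((hPc' P).1 hP) h1 i
      linarith)
    n₀
    (by
      intro R hR
      exact hcard R fun P hP => ⟨(hPc' P).1 (hR P hP).1, hownnone P (hR P hP).2⟩)
    (by
      have hcount' := hcount
      rw [← hVe, ← hAe] at hcount'
      have h1 : (n₀ : ℝ) = D.card + 4 * ((Set.ncard {v : ℤ × ℤ | v ∈ TT ∧ two h s
          (fun i => clo (u i) (d₀ / 2 ^ k) v) (fun i => chi (u i) (d₀ / 2 ^ k) v)} : ℝ) +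
          (Set.ncard {v : ℤ × ℤ | v ∈ BB ∧ ∃ i, hitc h (s i) (clo (u i) (d₀ / 2 ^ k) v)
            (chi (u i) (d₀ / 2 ^ k) v)} : ℝ)) := by
        rw [hn₀]
        push_cast
        ring
      rw [h1]
      exact count_aux hh hh1 (Nat.cast_nonneg _) (Nat.cast_nonneg _) hV0 hcount')
    i₀
  have hsum : ∑ᶠ P ∈ S, oscS K (u i₀) P ^ 2 = ∑ P ∈ Pc, oscS K (u i₀) P ^ 2 := by
    rw [hPc]
    exact finsum_mem_eq_finite_toFinset_sum _ hNS.fin
  rw [hsum]
  refine hmain.trans ?_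
  rw [hδ', hVe, hAe]
  nlinarith [mul_nonneg hC0 hVn, mul_nonneg hC0 hAn]

end Vale.Agent.P116.AD
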