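import Vale.Agent.P116.KB.H720.Cells2
import Vale.Agent.P116.KB.H984.Nod
import Vale.Agent.P116.KB.Grid841
import Vale.Agent.P116.H730.Abs
import Vale.Agent.P116.Cl.H805.StarF
import Vale.Agent.P116.G.Def

/-!
# P116, block [7] (adaptation): the mesh data and the labelling (architect: helper912)

`Msh` = everything which holds at a fine mesh `d = d₀ / 2 ^ k`, after the offsets `s` and the nodes
`QQ`, `MM` (special) are chosen.  `lab` = the labels for 730's `absorb`.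
-/

open Set Filter Topology Metric

namespace Vale.Agent.P116.AD

open H906
open KB720 (cell un clo chi bdc Tk Flat)
open KB.H984 (hitc two bad)
open Vale.Agent.P116.Star (pt St Rl Tch Ins)
open KB.Grid841 (col)

variable {ι : Type*}

/-- thick lattice neighbourhood of a node -/
def Nb (d : ℝ) (Q : Set ℂ) : Set (ℤ × ℤ) := Tch d (cthickening (4 * d) Q)

/-- the compact part of the region, off the nodes -/
def Ar (d d₀ : ℝ) (D : Finset (ℤ × ℤ)) (QQ : Finset (Set ℂ)) : Set ℂ :=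
  cthickening (20 * d) (un d₀ D) \ ⋃ Q ∈ QQ, interior Q

/-- the mesh is small for the nodes -/
structure Msh (K w : Set ℂ) (u : ι → ℂ → ℝ) (d₀ : ℝ) (D : Finset (ℤ × ℤ)) (h : ℝ) (s : ι → ℝ)
    (QQ MM : Finset (Set ℂ)) (lo hi : ι → Set ℂ → ℝ) (ρ d : ℝ) : Prop where
  hd : 0 < d
  hh : 0 < h
  hρ : 0 < ρ
  hρh : 4 * ρ ≤ h
  MQ : MM ⊆ QQ
  Qc : ∀ Q ∈ QQ, IsCompact Q ∧ IsConnected Q ∧ Disjoint (frontier Q) K
  cov : K ∩ w ⊆ ⋃ Q ∈ QQ, interior Q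
  /-- different nodes are far from each other -/
  sep : ∀ Q ∈ QQ, ∀ Q' ∈ QQ, Q ≠ Q' → ∀ x ∈ Q, ∀ y ∈ Q', 40 * d < dist x y
  inR : ∀ Q ∈ QQ, cthickening (20 * d) Q ⊆ un d₀ D
  inW : cthickening (20 * d) (un d₀ D) ⊆ w
  /-- values on the nodes -/
  val : ∀ i, ∀ Q ∈ QQ, ∀ z ∈ Q, z ∉ K → u i z ∈ Icc (lo i Q) (hi i Q)
  /-- modulus of continuity off the nodes -/
  mod : ∀ i, ∀ z ∈ Ar d d₀ D QQ, ∀ z' ∈ Ar d d₀ D QQ, dist z z' ≤ 20 * d → |u i z - u i z'| ≤ ρ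
  /-- good nodes: at most one level of one coordinate near the box -/
  good : ∀ Q ∈ QQ, Q ∉ MM → (∀ i, hi i Q - lo i Q + 2 * ρ < h) ∧
    ¬ two h s (fun i => lo i Q - ρ) (fun i => hi i Q + ρ)
  /-- the mesh is a dyadic part of the coarse mesh; fine cells off the nodes are in `Tk` or `bdc` -/
  dyad : ∃ k : ℕ, d = d₀ / 2 ^ k

open Classical in
/-- the labels: `none` outside the region, `inl Q` near the special node `Q`, `inr c` = colour `c` -/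
noncomputable def lab (u : ι → ℂ → ℝ) (d₀ : ℝ) (D : Finset (ℤ × ℤ)) (h : ℝ) (s : ι → ℝ)
    (QQ MM : Finset (Set ℂ)) (lo : ι → Set ℂ → ℝ) (ρ d : ℝ) (v : ℤ × ℤ) :
    Option (Set ℂ ⊕ (ι → ℤ)) :=
  if pt d v ∉ un d₀ D then none
  else if hM : ∃ Q ∈ MM, v ∈ Nb d Q then some (Sum.inl hM.choose)
  else if hQ : ∃ Q ∈ QQ, v ∈ Nb d Q then
    some (Sum.inr fun i => col h (s i) (lo i hQ.choose - ρ))
  else some (Sum.inr fun i => col h (s i) (u i (pt d v)))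

/-! ### the rows (literal Props) -/

/-- **ROW 7-MSH** (from 984's `nod`): all conditions hold for all large `k`. Here the nodes are
nodes of `K` inside the interior of the region. -/
def RowMsh : Prop := ∀ (ι : Type) [Fintype ι] (K w : Set ℂ) (u : ι → ℂ → ℝ) (d₀ : ℝ)
  (D : Finset (ℤ × ℤ)) (h : ℝ) (s : ι → ℝ) (QQ MM : Finset (Set ℂ)) (lo hi : ι → Set ℂ → ℝ)
  (ρ : ℝ), IsCompact K → Full K → IsCompact w → Disjoint (frontier w) K → 0 < d₀ → 0 < h →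
  0 < ρ → 4 * ρ ≤ h → MM ⊆ QQ → (∀ i, ContinuousOn (u i) Kᶜ) →
  K ∩ w ⊆ interior (un d₀ D) → un d₀ D ⊆ interior w →
  (∀ Q ∈ QQ, ∃ z ∈ K ∩ w, ∃ n, Q = nd K n z) → (∀ Q ∈ QQ, Q ⊆ interior (un d₀ D)) →
  (∀ Q ∈ QQ, ∀ Q' ∈ QQ, Q ≠ Q' → Disjoint Q Q') → K ∩ w ⊆ ⋃ Q ∈ QQ, Q →
  (∀ i, ∀ Q ∈ QQ, ∀ z ∈ Q, z ∉ K → u i z ∈ Icc (lo i Q) (hi i Q)) →
  (∀ Q ∈ QQ, Q ∉ MM → (∀ i, hi i Q - lo i Q + 2 * ρ < h) ∧
    ¬ two h s (fun i => lo i Q - ρ) (fun i => hi i Q + ρ)) →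
  ∀ᶠ k : ℕ in atTop, Msh K w u d₀ D h s QQ MM lo hi ρ (d₀ / 2 ^ k)

/-- **ROW 7-LVL**: nodes of large level near a compact open part of `K` are inside an open set -/
def RowLvl : Prop := ∀ (K w O : Set ℂ), IsCompact K → Full K → IsCompact w →
  Disjoint (frontier w) K → IsOpen O → K ∩ w ⊆ O →
  ∃ N, ∀ n ≥ N, ∀ z ∈ K ∩ w, nd K n z ⊆ O

/-- **ROW 7-LAB** (944): basic facts on the labels: the special sets are `Nb d Q`, every thick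
neighbourhood has one label, labelled points are in the region. -/
def RowLab : Prop := ∀ (ι : Type) [Fintype ι] (K w : Set ℂ) (u : ι → ℂ → ℝ) (d₀ : ℝ)
  (D : Finset (ℤ × ℤ)) (h : ℝ) (s : ι → ℝ) (QQ MM : Finset (Set ℂ)) (lo hi : ι → Set ℂ → ℝ)
  (ρ d : ℝ), IsCompact w → Full w → Msh K w u d₀ D h s QQ MM lo hi ρ d →
  (∀ v, lab u d₀ D h s QQ MM lo ρ d v ≠ none ↔ pt d v ∈ un d₀ D) ∧
  (∀ v, lab u d₀ D h s QQ MM lo ρ d v ≠ none → v ∈ Ins d w) ∧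
  (∀ Q ∈ MM, {v | lab u d₀ D h s QQ MM lo ρ d v = some (Sum.inl Q)} = Nb d Q) ∧
  (∀ Q ∉ MM, {v | lab u d₀ D h s QQ MM lo ρ d v = some (Sum.inl Q)} = ∅) ∧
  (∀ Q ∈ QQ, Q ∉ MM → ∀ v ∈ Nb d Q, lab u d₀ D h s QQ MM lo ρ d v =
    some (Sum.inr fun i => col h (s i) (lo i Q - ρ))) ∧
  (∀ v, pt d v ∈ un d₀ D → (∀ Q ∈ QQ, v ∉ Nb d Q) → lab u d₀ D h s QQ MM lo ρ d v =
    some (Sum.inr fun i => col h (s i) (u i (pt d v)))) ∧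
  (∀ Q ∈ QQ, H730.Cn (Nb d Q)) ∧
  (Ins d w).Finite ∧ H730.Cn (Ins d w)ᶜ

/-- **ROW 7-REP**: the labelled set has at most `#D` components -/
def RowRep : Prop := ∀ (d₀ : ℝ) (D : Finset (ℤ × ℤ)) (k : ℕ), 0 < d₀ →
  ∃ reps : Finset (ℤ × ℤ), reps.card ≤ D.card ∧
    ∀ v, pt (d₀ / 2 ^ k) v ∈ un d₀ D →
      ∃ r ∈ reps, H730.RC {v | pt (d₀ / 2 ^ k) v ∈ un d₀ D} v r

/-- **ROW 7-TRI** (944): three labels at a triangle are paid by a fine cell with levels of two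
coordinates, or by a boundary cell with one level. `TT` = the cells of `Tk`, `BB` = the cells of
`bdc` (finite sets). -/
def RowTri : Prop := ∀ (ι : Type) [Fintype ι] (K w : Set ℂ) (u r : ι → ℂ → ℝ) (d₀ : ℝ)
  (D : Finset (ℤ × ℤ)) (h : ℝ) (s : ι → ℝ) (QQ MM : Finset (Set ℂ)) (lo hi : ι → Set ℂ → ℝ)
  (ρ : ℝ) (k : ℕ), IsCompact w → Full w → 0 < d₀ → (∀ i, ContinuousOn (u i) Kᶜ) →
  (∀ V, V ∉ D → (cell d₀ V ∩ un d₀ D).Nonempty → Disjoint (cell d₀ V) K) →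
  Msh K w u d₀ D h s QQ MM lo hi ρ (d₀ / 2 ^ k) →
  (∀ v, (cell (d₀ / 2 ^ k) v ∩ (un d₀ D \ ⋃ Q ∈ QQ, interior Q)).Nonempty →
    v ∈ Tk K r d₀ D k ∨ v ∈ bdc d₀ D k) →
  ∀ TT BB : Finset (ℤ × ℤ), (∀ v, v ∈ TT ↔ v ∈ Tk K r d₀ D k) →
  (∀ v, v ∈ BB ↔ v ∈ bdc d₀ D k) →
  ∃ T : Finset (ℤ × ℤ), (∀ b, H730.TL (lab u d₀ D h s QQ MM lo ρ (d₀ / 2 ^ k)) b → b ∈ T) ∧
    T.card ≤ 4 * (Set.ncard {v : ℤ × ℤ | v ∈ TT ∧ two h s (fun i => clo (u i) (d₀ / 2 ^ k) v)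
        (fun i => chi (u i) (d₀ / 2 ^ k) v)} +
      Set.ncard {v : ℤ × ℤ | v ∈ BB ∧ ∃ i, hitc h (s i) (clo (u i) (d₀ / 2 ^ k) v)
        (chi (u i) (d₀ / 2 ^ k) v)})

/-- **ROW 7-CORE** (155): the values on the cores. `B` = a core given by `absorb`. -/
def RowCore : Prop := ∀ (ι : Type) [Fintype ι] (K w : Set ℂ) (u : ι → ℂ → ℝ) (d₀ : ℝ)
  (D : Finset (ℤ × ℤ)) (h : ℝ) (s : ι → ℝ) (QQ MM : Finset (Set ℂ)) (lo hi : ι → Set ℂ → ℝ)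
  (ρ d : ℝ), IsCompact w → Full w → Msh K w u d₀ D h s QQ MM lo hi ρ d →
  ∀ B : Set (ℤ × ℤ), (∀ v ∈ B, lab u d₀ D h s QQ MM lo ρ d v ≠ none) →
  ((∃ c, ∀ v ∈ B, lab u d₀ D h s QQ MM lo ρ d v = some (Sum.inr c)) →
    ∀ i, ∃ a, ∀ z ∈ Rl d B, z ∉ K → u i z ∈ Icc a (a + 3 * h)) ∧
  (∀ Q ∈ MM, (∀ v ∈ B, lab u d₀ D h s QQ MM lo ρ d v = some (Sum.inl Q) ∨
      ∃ c x y, lab u d₀ D h s QQ MM lo ρ d v = some (Sum.inr c) ∧
        lab u d₀ D h s QQ MM lo ρ d x = some (Sum.inr c) ∧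
        lab u d₀ D h s QQ MM lo ρ d y = some (Sum.inl Q) ∧ H730.Cl x y ∧ x ∈ B) →
    ∀ i, ∃ a, ∀ z ∈ Rl d B, z ∉ K → u i z ∈ Icc a (a + (hi i Q - lo i Q) + 5 * h))

/-- lower / upper end value at a point of `K` (over `KB/HDef`: `u '' (nd K n z \ K)`) -/
noncomputable def aE (K : Set ℂ) (u : ℂ → ℝ) (z : ℂ) : ℝ := ⨆ n, sInf (u '' (nd K n z \ K))
/-- upper end value -/
noncomputable def bE (K : Set ℂ) (u : ℂ → ℝ) (z : ℂ) : ℝ := ⨅ n, sSup (u '' (nd K n z \ K))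

/-- **ROW 7-END1**: the end values are the limits of the values over the nodes -/
def RowEnd1 : Prop := ∀ (K : Set ℂ) (u : ℂ → ℝ), IsCompact K → Full K → ContinuousOn u Kᶜ →
  (∃ B, ∀ z ∈ lev K 0, z ∉ K → |u z| ≤ B) → ∀ z ∈ K,
  aE K u z ≤ bE K u z ∧
  (∀ n, ∀ y ∈ nd K n z, y ∉ K → u y ∈ Icc (sInf (u '' (nd K n z \ K))) (sSup (u '' (nd K n z \ K)))) ∧
  (∀ ε > 0, ∃ m, ∀ n ≥ m, aE K u z - ε ≤ sInf (u '' (nd K n z \ K)) ∧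
    sSup (u '' (nd K n z \ K)) ≤ bE K u z + ε) ∧
  (∀ y ∈ K, connectedComponentIn K y = connectedComponentIn K z → aE K u y = aE K u z ∧
    bE K u y = bE K u z)

end Vale.Agent.P116.AD
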