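import Vale.Agent.P116.AD.Spec
import Vale.Agent.P116.KB.Sel841
import Vale.Agent.P116.KB.TopDef

/-!
# P116, block [7]: literal Props of the two halves of the assembly (architect: helper912)

`RowSel` (179): the random choice.  `RowFin` (730): the deterministic half at one fine mesh.
-/

open Set Filter Topology Metric MeasureTheory

namespace Vale.Agent.P116.AD

open H906
open KB720 (cell un clo chi bdc Tk Flat)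
open KB.H984 (hitc two bad)
open Vale.Agent.P116.Star (pt St Rl Tch Ins)
open KB (Hon Zs oscS oscC Eo)

/-- **ROW 7-SEL** (179): region, then for every `h` the offsets and the bad components, then
infinitely many meshes. `r i` = the majorant `ρ i` of `Hon`. -/
def RowSel : Prop := ∀ (ι : Type) [Fintype ι] [DecidableEq ι], ∃ C0 : ℝ, 0 ≤ C0 ∧
  ∀ (K : Set ℂ) (n : ℕ) (x : ℂ) (u r : ι → ℂ → ℝ), IsCompact K → Full K → x ∈ K →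
  (∀ i, Hon K (nd K n x) (u i) (r i)) →
  (∀ i j, i ≠ j → volume (Zs K (nd K n x) (u i) (u j)) = 0) →
  ∀ (F : Finset (Set ℂ)) (V A : ℝ),
  (∀ i, ∀ J : Finset (Set ℂ), (∀ c ∈ J, c ∈ comps K ∧ c ⊆ nd K n x ∧ c ∉ F) →
    ∑ c ∈ J, oscC K (u i) c ^ 2 ≤ V) →
  (∀ i, (∫⁻ z in nd K n x \ K, (ENNReal.ofReal (r i z ^ 2) + 1)).toReal ≤ A) →
  ∃ (d₀ : ℝ) (D : Finset (ℤ × ℤ)) (Bd : ℝ), 0 < d₀ ∧ 0 ≤ Bd ∧
    K ∩ nd K n x ⊆ interior (un d₀ D) ∧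
    (∀ V, (cell d₀ V ∩ un d₀ D).Nonempty → cell d₀ V ⊆ interior (nd K n x)) ∧
    (∀ V, V ∉ D → (cell d₀ V ∩ un d₀ D).Nonempty → Disjoint (cell d₀ V) K) ∧
    ∀ h : ℝ, 0 < h → ∃ (s : ι → ℝ) (b : Finset (Set ℂ)),
      (∀ c ∈ b, c ∈ comps K ∧ c ⊆ nd K n x) ∧
      (∀ z ∈ K ∩ nd K n x, bad h s (fun i => aE K (u i) z) (fun i => bE K (u i) z) →
        connectedComponentIn K z ∈ b) ∧
      ∃ᶠ k : ℕ in atTop, ∀ TT BB : Finset (ℤ × ℤ), (∀ v, v ∈ TT ↔ v ∈ Tk K r d₀ D k) →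
        (∀ v, v ∈ BB ↔ v ∈ bdc d₀ D k) →
        (b.card : ℝ) +
          (Set.ncard {v : ℤ × ℤ | v ∈ TT ∧ two h s (fun i => clo (u i) (d₀ / 2 ^ k) v)
            (fun i => chi (u i) (d₀ / 2 ^ k) v)} : ℝ) +
          (Set.ncard {v : ℤ × ℤ | v ∈ BB ∧ ∃ i, hitc h (s i) (clo (u i) (d₀ / 2 ^ k) v)
            (chi (u i) (d₀ / 2 ^ k) v)} : ℝ) ≤
          F.card + C0 * (V + A) / h ^ 2 + Bd / h + 1

/-- **ROW 7-FIN** (730): the deterministic half at one fine mesh. -/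
def RowFin : Prop := ∀ (ι : Type) [Fintype ι] (K w : Set ℂ) (u r : ι → ℂ → ℝ) (d₀ : ℝ)
  (D : Finset (ℤ × ℤ)) (h : ℝ) (s : ι → ℝ) (QQ MM : Finset (Set ℂ)) (lo hi : ι → Set ℂ → ℝ)
  (ρ : ℝ) (k : ℕ), IsCompact K → Full K → IsCompact w → Full w → Disjoint (frontier w) K →
  0 < d₀ → (∀ i, ContinuousOn (u i) Kᶜ) → (∀ i, KF.SMon K w (u i)) →
  (∀ V, V ∉ D → (cell d₀ V ∩ un d₀ D).Nonempty → Disjoint (cell d₀ V) K) →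
  (∀ Q ∈ QQ, Q.Nontrivial) →
  Msh K w u d₀ D h s QQ MM lo hi ρ (d₀ / 2 ^ k) →
  (∀ v, (cell (d₀ / 2 ^ k) v ∩ (un d₀ D \ ⋃ Q ∈ QQ, interior Q)).Nonempty →
    v ∈ Tk K r d₀ D k ∨ v ∈ bdc d₀ D k) →
  ∀ TT BB : Finset (ℤ × ℤ), (∀ v, v ∈ TT ↔ v ∈ Tk K r d₀ D k) →
  (∀ v, v ∈ BB ↔ v ∈ bdc d₀ D k) →
  ∃ (S : Set (Set ℂ)) (own : Set ℂ → Option (Set ℂ)), G.NS K w S ∧
    (∀ y ∈ K, y ∈ w → ∃ P ∈ S, y ∈ P) ∧
    (∀ P ∈ S, ∀ Q, own P = some Q → Q ∈ MM) ∧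
    (∀ P ∈ S, ∀ P' ∈ S, ∀ Q, own P = some Q → own P' = some Q → P = P') ∧
    (∀ P ∈ S, ∀ Q, own P = some Q → ∀ i, oscS K (u i) P ≤ hi i Q - lo i Q + 5 * h) ∧
    (∀ P ∈ S, own P = none → ∀ i, oscS K (u i) P ≤ 3 * h) ∧
    (∀ R : Finset (Set ℂ), (∀ P ∈ R, P ∈ S ∧ own P = none) → R.card ≤ D.card +
      4 * (Set.ncard {v : ℤ × ℤ | v ∈ TT ∧ two h s (fun i => clo (u i) (d₀ / 2 ^ k) v)
            (fun i => chi (u i) (d₀ / 2 ^ k) v)} +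
          Set.ncard {v : ℤ × ℤ | v ∈ BB ∧ ∃ i, hitc h (s i) (clo (u i) (d₀ / 2 ^ k) v)
            (chi (u i) (d₀ / 2 ^ k) v)}))

end Vale.Agent.P116.AD
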